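import Mathlib
import Vale.Agent.H98.QAC.Final2
import Vale.Agent.H98.QAC.Exact
import Vale.Agent.H98.QAC.DeepAsymp
import Vale.Agent.H98.QAC.UnitsMid

namespace Vale.Agent.Results.P368.A0_CombinedDepthBounds

open Vale.Agent.H98.QAC

/-- Parity against QAC circuits: the bounds of this folder in one statement.

The register has `n` input qubits `Sum.inl i` and ancilla qubits `Sum.inr a` for an arbitrary
finite type `A`.  A circuit is a list of layers, each a list of valid gates (one-qubit
unitaries and generalized Toffoli gates) with pairwise disjoint supports; its entangling depth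
is the number of layers that contain a Toffoli gate.  Write `c` for the absolute value of the
parity correlation at an output qubit `q`.

0. For every circuit and every output qubit: if the output equals `PAR x` with probability at
   least `1/2 + ε` on every input `x`, then `2 * ε ≤ c`.
1. Entangling depth at most two: `c ≤ 4 / 2 ^ h` with `h = (n + 1) / 2` (natural numbers, so
   `h` is `n / 2` rounded up), and for every `n ≥ 3` some circuit of entangling depth at most
   two has `c = 4 / 2 ^ h`.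
2. For every `d ≥ 3` and `δ > 0` there are `c₀ > 0` and `n₀` such that for all `n ≥ n₀`, with
   `L = c₀ * n^2 / (log n)^2`:
   (a) circuits of entangling depth at most `d` have `c ≤ δ` if every gate acts on a number
       `s` of qubits with `s ^ (2 d - 5) ≤ L`, or if the total number `N = n + card A` of qubits
       satisfies `N ^ (2 d - 5) ≤ L`;
   (b) circuits `pre ++ mid :: post` (the layers of `pre`, then the layer `mid`, then the layers
       of `post`) with `pre` and `post` of entangling depth at most one have `c ≤ δ` if `mid`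
       contains at most `L` generalized Toffoli gates (of any size). -/
theorem result :
    (∀ (n : ℕ) (A : Type) [Fintype A] [DecidableEq A] (c : List (List (Gate (Fin n ⊕ A)))),
        (∀ l ∈ c, IsLayer l) → ∀ q : Fin n ⊕ A,
          (∀ ε : ℝ,
            (∀ x : Fin n → Bool,
              1 / 2 + ε ≤ outProb (circuitMatrix c) q (inputState x) (parity x)) →
            2 * ε ≤ |parityCorrelation (circuitMatrix c) q|) ∧
          (entanglingDepth c ≤ 2 →
            |parityCorrelation (circuitMatrix c) q| ≤ 4 / 2 ^ ((n + 1) / 2))) ∧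
    (∀ n : ℕ, 3 ≤ n → ∀ (A : Type) [Fintype A] [DecidableEq A],
        ∃ c : List (List (Gate (Fin n ⊕ A))),
          (∀ l ∈ c, IsLayer l) ∧ entanglingDepth c ≤ 2 ∧
            ∃ q : Fin n ⊕ A,
              |parityCorrelation (circuitMatrix c) q| = 4 / 2 ^ ((n + 1) / 2)) ∧
    (∀ d : ℕ, 3 ≤ d → ∀ δ : ℝ, 0 < δ →
      ∃ c₀ : ℝ, 0 < c₀ ∧ ∃ n₀ : ℕ, ∀ n : ℕ, n₀ ≤ n →
        ∀ (A : Type) [Fintype A] [DecidableEq A],
          (∀ c : List (List (Gate (Fin n ⊕ A))),
            (∀ l ∈ c, IsLayer l) → entanglingDepth c ≤ d →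
            (((n + Fintype.card A : ℕ) : ℝ) ^ (2 * d - 5) ≤ c₀ * (n : ℝ) ^ 2 / Real.log n ^ 2 ∨
              ∀ l ∈ c, ∀ g ∈ l,
                (g.support.card : ℝ) ^ (2 * d - 5) ≤ c₀ * (n : ℝ) ^ 2 / Real.log n ^ 2) →
            ∀ q : Fin n ⊕ A, |parityCorrelation (circuitMatrix c) q| ≤ δ) ∧
          (∀ (pre post : List (List (Gate (Fin n ⊕ A)))) (mid : List (Gate (Fin n ⊕ A))),
            (∀ l ∈ pre, IsLayer l) → IsLayer mid → (∀ l ∈ post, IsLayer l) →
            entanglingDepth pre ≤ 1 → entanglingDepth post ≤ 1 →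
            ((mid.countP Gate.isMultiQubit : ℕ) : ℝ) ≤ c₀ * (n : ℝ) ^ 2 / Real.log n ^ 2 →
            ∀ q : Fin n ⊕ A,
              |parityCorrelation (circuitMatrix (pre ++ mid :: post)) q| ≤ δ)) := by
  refine ⟨fun n A _ _ c hc q => ⟨fun ε hε => depth3_advantage c hc q ε hε,
      fun hd => depth2_parity_correlation_sharp c hc hd q⟩,
    fun n hn A _ _ => exists_tight n hn A, ?_⟩
  intro d hd3 δ hδ
  obtain ⟨c₁, hc₁, n₁, h₁⟩ := deep_asymptotic d hd3 δ hδ
  obtain ⟨c₂, hc₂, n₂, h₂⟩ := mid_asymptotic δ hδ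
  refine ⟨min c₁ c₂, lt_min hc₁ hc₂, max n₁ n₂, ?_⟩
  intro n hn A _ _
  have hn₁ : n₁ ≤ n := le_trans (le_max_left _ _) hn
  have hn₂ : n₂ ≤ n := le_trans (le_max_right _ _) hn
  have hL₁ : min c₁ c₂ * (n : ℝ) ^ 2 / Real.log n ^ 2 ≤ c₁ * (n : ℝ) ^ 2 / Real.log n ^ 2 :=
    div_le_div_of_nonneg_right
      (mul_le_mul_of_nonneg_right (min_le_left _ _) (sq_nonneg _)) (sq_nonneg _)
  have hL₂ : min c₁ c₂ * (n : ℝ) ^ 2 / Real.log n ^ 2 ≤ c₂ * (n : ℝ) ^ 2 / Real.log n ^ 2 :=
    div_le_div_of_nonneg_right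
      (mul_le_mul_of_nonneg_right (min_le_right _ _) (sq_nonneg _)) (sq_nonneg _)
  refine ⟨fun c hc hd hyp q => ?_, fun pre post mid hpre hmid hpost h1 h3 hyp q => ?_⟩
  · refine h₁ n hn₁ A c hc hd ?_ q
    rcases hyp with h | h
    · exact Or.inl (h.trans hL₁)
    · exact Or.inr (fun l hl g hg => (h l hl g hg).trans hL₁)
  · exact h₂ n hn₂ A pre post mid hpre hmid hpost h1 h3 (hyp.trans hL₂) q

end Vale.Agent.Results.P368.A0_CombinedDepthBounds
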