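import Mathlib
import Vale.Agent.H98.QAC.Final2
import Vale.Agent.H98.QAC.Exact

namespace Vale.Agent.Results.P368.A_DepthTwoExact

open Vale.Agent.H98.QAC

/-- The exact optimal parity correlation at entangling depth two.

Write `h = (n + 1) / 2` (division of natural numbers, so `h` is `n / 2` rounded up).

Upper bound: for every `n`, every finite type `A` of ancilla qubits, every circuit on the
qubits `Fin n ⊕ A` (layers of valid one-qubit and generalized Toffoli gates with pairwise
disjoint supports) of entangling depth at most two and every output qubit `q`: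

* the parity correlation (the average over uniform inputs `x` of
  `Pr[out = PAR x] - Pr[out ≠ PAR x]`) is at most `4 / 2 ^ h` in absolute value;
* if the circuit outputs `PAR x` with probability at least `1/2 + ε` on every input `x`, then
  `ε ≤ 2 / 2 ^ h`.

Attainment: for every `n ≥ 3` and every finite type `A` of ancilla qubits there is such a
circuit of entangling depth at most two whose parity correlation has absolute value exactly
`4 / 2 ^ h` (a layer of CNOT gates on input pairs followed by one Toffoli gate). -/
theorem result :
    (∀ (n : ℕ) (A : Type) [Fintype A] [DecidableEq A] (c : List (List (Gate (Fin n ⊕ A)))),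
      (∀ l ∈ c, IsLayer l) → entanglingDepth c ≤ 2 → ∀ q : Fin n ⊕ A,
        |parityCorrelation (circuitMatrix c) q| ≤ 4 / 2 ^ ((n + 1) / 2) ∧
        ∀ ε : ℝ,
          (∀ x : Fin n → Bool,
            1 / 2 + ε ≤ outProb (circuitMatrix c) q (inputState x) (parity x)) →
          ε ≤ 2 / 2 ^ ((n + 1) / 2)) ∧
    (∀ n : ℕ, 3 ≤ n → ∀ (A : Type) [Fintype A] [DecidableEq A],
      ∃ c : List (List (Gate (Fin n ⊕ A))),
        (∀ l ∈ c, IsLayer l) ∧ entanglingDepth c ≤ 2 ∧
          ∃ q : Fin n ⊕ A,
            |parityCorrelation (circuitMatrix c) q| = 4 / 2 ^ ((n + 1) / 2)) :=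
  ⟨fun _ _ _ _ c hc hd q => ⟨depth2_parity_correlation_sharp c hc hd q,
      fun ε hε => depth2_parity_advantage_sharp c hc hd q ε hε⟩,
    fun n hn A _ _ => exists_tight n hn A⟩

end Vale.Agent.Results.P368.A_DepthTwoExact
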