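import Mathlib
import Vale.Agent.H98.QAC.DeepFinal

namespace Vale.Agent.Results.P368.B_AllDepthsExplicit

open Vale.Agent.H98.QAC

/-- Parity versus QAC circuits of every entangling depth `d ≥ 3`, with any number of ancillas,
in terms of the fan-in of the gates.

The register has `n` input qubits `Sum.inl i` and ancilla qubits `Sum.inr a` for an arbitrary
finite type `A`.  A circuit is a list of layers, each a list of valid gates (one-qubit
unitaries and generalized Toffoli gates) with pairwise disjoint supports; its entangling depth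
is the number of layers that contain a Toffoli gate.  Let `w ≥ 1` bound the number of qubits
on which each gate acts.  For every such circuit of entangling depth at most `d`, `d ≥ 3`,
and every output qubit `q`:

* the parity correlation is at most
  `6 / sqrt 2 ^ n + (d - 2) * (4 / 2 ^ (n / 8)
    + 8 * exp (- n * log 2 / (16 * (w + 2) ^ (d - 3) * sqrt w * log (19 * w))))`
  in absolute value;
* if the circuit outputs `PAR x` with probability at least `1/2 + ε` on every input `x`, then
  `2 * ε` is at most the same quantity. -/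
theorem result (n : ℕ) (A : Type) [Fintype A] [DecidableEq A]
    (c : List (List (Gate (Fin n ⊕ A)))) (hc : ∀ l ∈ c, IsLayer l)
    (d : ℕ) (hd3 : 3 ≤ d) (hd : entanglingDepth c ≤ d) (w : ℕ) (hw1 : 1 ≤ w)
    (hw : ∀ l ∈ c, ∀ g ∈ l, g.support.card ≤ w) (q : Fin n ⊕ A) :
    |parityCorrelation (circuitMatrix c) q| ≤
        6 / Real.sqrt 2 ^ n + ((d : ℝ) - 2) * (4 / (2 : ℝ) ^ ((n : ℝ) / 8)
          + 8 * Real.exp (-((n : ℝ) * Real.log 2
              / (16 * ((w : ℝ) + 2) ^ (d - 3) * Real.sqrt (w : ℝ)
                * Real.log (19 * (w : ℝ)))))) ∧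
    ∀ ε : ℝ,
      (∀ x : Fin n → Bool, 1 / 2 + ε ≤ outProb (circuitMatrix c) q (inputState x) (parity x)) →
      2 * ε ≤
        6 / Real.sqrt 2 ^ n + ((d : ℝ) - 2) * (4 / (2 : ℝ) ^ ((n : ℝ) / 8)
          + 8 * Real.exp (-((n : ℝ) * Real.log 2
              / (16 * ((w : ℝ) + 2) ^ (d - 3) * Real.sqrt (w : ℝ)
                * Real.log (19 * (w : ℝ)))))) :=
  ⟨deep_correlation c hc d hd3 hd w hw1 hw q, fun ε hε =>
    (depth3_advantage c hc q ε hε).trans (deep_correlation c hc d hd3 hd w hw1 hw q)⟩

end Vale.Agent.Results.P368.B_AllDepthsExplicit
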