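import Mathlib
import Vale.Agent.H98.QAC.UnitsMid

namespace Vale.Agent.Results.P368.D_DepthThreeMiddleLayer

open Vale.Agent.H98.QAC

/-- No fixed parity advantage at entangling depth three unless the middle entangling layer
alone contains more than about `n^2 / log^2 n` multi-qubit gates, whatever the sizes of the
gates, the number of ancillas and the other two entangling layers.

For every `δ > 0` there are a constant `c₀ > 0` and a threshold `n₀` such that for all
`n ≥ n₀`, every finite set `A` of ancilla qubits and every circuit on the qubits `Fin n ⊕ A`
of the form `pre ++ mid :: post` (the layers of `pre` are applied first, then the layer `mid`,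
then the layers of `post`; layers consist of valid one-qubit and generalized Toffoli gates with
pairwise disjoint supports), where `pre` and `post` have entangling depth at most one each:
if the layer `mid` contains at most `c₀ * n^2 / (log n)^2` generalized Toffoli gates (each
acting on any number of qubits; the numbers of gates in `pre` and `post` are not restricted),
then for every output qubit `q` the parity correlation is at most `δ` in absolute value, and if
the circuit outputs `PAR x` with probability at least `1/2 + ε` on every input `x` then
`ε ≤ δ / 2`.

Every circuit of entangling depth at most three with at least one layer is of this form, with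
`mid` its second entangling layer if it has one. -/
theorem result (δ : ℝ) (hδ : 0 < δ) :
    ∃ c₀ : ℝ, 0 < c₀ ∧ ∃ n₀ : ℕ, ∀ n : ℕ, n₀ ≤ n →
      ∀ (A : Type) [Fintype A] [DecidableEq A] (pre post : List (List (Gate (Fin n ⊕ A))))
        (mid : List (Gate (Fin n ⊕ A))),
        (∀ l ∈ pre, IsLayer l) → IsLayer mid → (∀ l ∈ post, IsLayer l) →
        entanglingDepth pre ≤ 1 → entanglingDepth post ≤ 1 →
        ((mid.countP Gate.isMultiQubit : ℕ) : ℝ) ≤ c₀ * (n : ℝ) ^ 2 / Real.log n ^ 2 →
        ∀ q : Fin n ⊕ A,
          |parityCorrelation (circuitMatrix (pre ++ mid :: post)) q| ≤ δ ∧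
          ∀ ε : ℝ,
            (∀ x : Fin n → Bool,
              1 / 2 + ε
                ≤ outProb (circuitMatrix (pre ++ mid :: post)) q (inputState x) (parity x)) →
            ε ≤ δ / 2 := by
  obtain ⟨c₀, hc₀, n₀, h⟩ := mid_asymptotic δ hδ
  refine ⟨c₀, hc₀, n₀, ?_⟩
  intro n hn A _ _ pre post mid hpre hmid hpost h1 h3 hyp q
  have hcorr := h n hn A pre post mid hpre hmid hpost h1 h3 hyp q
  refine ⟨hcorr, fun ε hε => ?_⟩
  have h2 := depth3_advantage (pre ++ mid :: post)
    (isLayer_mid pre post mid hpre hmid hpost) q ε hε
  linarith

end Vale.Agent.Results.P368.D_DepthThreeMiddleLayer
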