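import Mathlib
import Vale.Agent.H98.QAC.DeepAsymp

namespace Vale.Agent.Results.P368.E_AllDepthsAsymptotic

open Vale.Agent.H98.QAC

/-- No fixed parity advantage at any entangling depth `d ≥ 3` with gates of fan-in below about
`(n / log n) ^ (2 / (2 d - 5))`, whatever the number of ancillas.

For every `d ≥ 3` and every `δ > 0` there are a constant `c₀ > 0` and a threshold `n₀` such
that for all `n ≥ n₀`, every finite set `A` of ancilla qubits and every circuit on the qubits
`Fin n ⊕ A` (layers of valid one-qubit and generalized Toffoli gates with pairwise disjoint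
supports) of entangling depth at most `d`: if every gate acts on a number `s` of qubits with
`s ^ (2 d - 5) ≤ c₀ * n^2 / (log n)^2`, or if the total number `N = n + card A` of qubits
satisfies `N ^ (2 d - 5) ≤ c₀ * n^2 / (log n)^2`, then for every output qubit `q` the parity
correlation is at most `δ` in absolute value, and if the circuit outputs `PAR x` with
probability at least `1/2 + ε` on every input `x` then `ε ≤ δ / 2`.

For `d = 3` the exponent `2 d - 5` is `1`. -/
theorem result (d : ℕ) (hd3 : 3 ≤ d) (δ : ℝ) (hδ : 0 < δ) :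
    ∃ c₀ : ℝ, 0 < c₀ ∧ ∃ n₀ : ℕ, ∀ n : ℕ, n₀ ≤ n →
      ∀ (A : Type) [Fintype A] [DecidableEq A] (c : List (List (Gate (Fin n ⊕ A)))),
        (∀ l ∈ c, IsLayer l) → entanglingDepth c ≤ d →
        (((n + Fintype.card A : ℕ) : ℝ) ^ (2 * d - 5) ≤ c₀ * (n : ℝ) ^ 2 / Real.log n ^ 2 ∨
          ∀ l ∈ c, ∀ g ∈ l,
            (g.support.card : ℝ) ^ (2 * d - 5) ≤ c₀ * (n : ℝ) ^ 2 / Real.log n ^ 2) →
        ∀ q : Fin n ⊕ A,
          |parityCorrelation (circuitMatrix c) q| ≤ δ ∧
          ∀ ε : ℝ,
            (∀ x : Fin n → Bool,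
              1 / 2 + ε ≤ outProb (circuitMatrix c) q (inputState x) (parity x)) →
            ε ≤ δ / 2 := by
  obtain ⟨c₀, hc₀, n₀, h⟩ := deep_asymptotic d hd3 δ hδ
  refine ⟨c₀, hc₀, n₀, ?_⟩
  intro n hn A _ _ c hc hd hyp q
  have h1 := h n hn A c hc hd hyp q
  refine ⟨h1, fun ε hε => ?_⟩
  have h2 := depth3_advantage c hc q ε hε
  linarith

end Vale.Agent.Results.P368.E_AllDepthsAsymptotic
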